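import Vale.Agent.P011.D4X.Defs
import Vale.Agent.P011.D4.Emb
import Vale.Agent.P011.D4T.H369.FixI
import Vale.Agent.P011.E6I.Gal

/-!
Block D4X, row F1a: the elements of the group which fix `e₊` come from automorphisms of the
octonion algebra over the ground field which fix `i`, and lie in the finite residual.
-/

open NumberField Topology

namespace Vale.Agent.P011.D4X.H369

open Vale.Agent.P011.MPQ Vale.Agent.P011.D4 Vale.Agent.P011.D4.Oct Vale.Agent.P011.D4.Em
open Vale.Agent.P011.D4.B.FI (fixI fixI_top mem_fixI)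

section alg

variable {k L E : Type} [Field k] [Field L] [Field E] [Algebra k L] [Algebra k E] [Algebra L E]
  [IsScalarTower k L E] {ρ σ : E ≃ₐ[k] E} {ρL : L ≃ₐ[k] L} {α : E} {a b c : kˣ} {q : Lˣ}

theorem oup_inj {x y : Oct a b c} (h : oup E x = oup E y) : x = y := by
  have hinj := (algebraMap k E).injective
  have h1 := congrArg (fun z : OctL E a b c => z.fst.re) h
  have h2 := congrArg (fun z : OctL E a b c => z.fst.imI) h
  have h3 := congrArg (fun z : OctL E a b c => z.fst.imJ) h
  have h4 := congrArg (fun z : OctL E a b c => z.fst.imK) h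
  have h5 := congrArg (fun z : OctL E a b c => z.snd.re) h
  have h6 := congrArg (fun z : OctL E a b c => z.snd.imI) h
  have h7 := congrArg (fun z : OctL E a b c => z.snd.imJ) h
  have h8 := congrArg (fun z : OctL E a b c => z.snd.imK) h
  apply Oct.ext
  · exact QuaternionAlgebra.ext (hinj h1) (hinj h2) (hinj h3) (hinj h4)
  · exact QuaternionAlgebra.ext (hinj h5) (hinj h6) (hinj h7) (hinj h8)

/-- The octonion `t e₊ + e₋`. -/
def mo (α t : E) : OctL E a b c := ⟨mq a b α t, 0⟩

theorem Jm_eq (x : OctL E a b c) : Jm ρ σ α q x = mo α (algebraMap L E q) * omap σ x *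
    mo α (algebraMap L E q * ρ (algebraMap L E q)) := by
  apply Oct.ext
  · simp [Jm, mo, omap]
  · simp only [Jm, mo, omap, snd_mul, fst_mul, star_zero, zero_mul, mul_zero, add_zero, zero_add,
      smul_zero]
    rw [mul_assoc]

variable [NeZero (2 : E)]

theorem mo_eq (t : E) : (mo α t : OctL E a b c) = t • ep α + (1 - ep α) := by
  have h2 : (2 : E) ≠ 0 := NeZero.ne 2
  apply Oct.ext
  · apply QuaternionAlgebra.ext
    · change (t + 1) / 2 = t * (1 / 2) + (1 - 1 / 2)
      field_simp
      ring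
    · change (t - 1) / (2 * α) = t * (1 / (2 * α)) + (0 - 1 / (2 * α))
      ring
    · change (0 : E) = t * 0 + (0 - 0)
      ring
    · change (0 : E) = t * 0 + (0 - 0)
      ring
  · change (0 : Qt (up E a) (up E b)) = t • 0 + (0 - 0)
    rw [smul_zero, sub_zero, add_zero]

omit [NeZero (2 : E)] in
theorem ep_eq : (ep α : OctL E a b c) = (1 / 2 : E) • oup E (1 : Oct a b c) +
    (1 / (2 * α)) • oup E (gi : Oct a b c) := by
  have h1 : algebraMap k E 1 = 1 := map_one _
  have h0 : algebraMap k E 0 = 0 := map_zero _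
  apply Oct.ext
  · apply QuaternionAlgebra.ext
    · change (1 / 2 : E) = 1 / 2 * algebraMap k E 1 + 1 / (2 * α) * algebraMap k E 0
      rw [h1, h0]; ring
    · change 1 / (2 * α) = 1 / 2 * algebraMap k E 0 + 1 / (2 * α) * algebraMap k E 1
      rw [h1, h0]; ring
    · change (0 : E) = 1 / 2 * algebraMap k E 0 + 1 / (2 * α) * algebraMap k E 0
      rw [h0]; ring
    · change (0 : E) = 1 / 2 * algebraMap k E 0 + 1 / (2 * α) * algebraMap k E 0
      rw [h0]; ring
  · apply QuaternionAlgebra.ext <;>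
    · change (0 : E) = 1 / 2 * algebraMap k E 0 + 1 / (2 * α) * algebraMap k E 0
      rw [h0]; ring

theorem gi_eq (hα : α ≠ 0) : oup E (gi : Oct a b c) =
    (2 * α) • (ep α : OctL E a b c) - α • oup E (1 : Oct a b c) := by
  have h2 : (2 : E) ≠ 0 := NeZero.ne 2
  rw [ep_eq, smul_add, smul_smul, smul_smul]
  have e1 : 2 * α * (1 / 2) = α := by field_simp
  have e2 : 2 * α * (1 / (2 * α)) = 1 := by field_simp
  rw [e1, e2, one_smul]
  abel

theorem Jm_ep (hα : α * α = algebraMap k E a) (hσ : σ α = -α) :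
    Jm ρ σ α q (ep α : OctL E a b c) = 1 - ep α := by
  have h2 : (2 : E) ≠ 0 := NeZero.ne 2
  have hα0 : α ≠ 0 := by
    rintro rfl
    rw [mul_zero] at hα
    exact a.ne_zero ((map_eq_zero _).mp hα.symm)
  have h3 : σ (2 : E) = 2 := map_ofNat σ 2
  have h4 : σ (1 / 2) = 1 / 2 := by rw [map_div₀, map_one, h3]
  have h5 : σ (1 / (2 * α)) = -(1 / (2 * α)) := by
    rw [map_div₀, map_one, map_mul, h3, hσ]
    field_simp
  have ha : ((up E a : Eˣ) : E) = α * α := hα.symm
  have key : ∀ t s : E, (mq a b α t : Qt (up E a) (up E b)) * qmap σ (ep α : OctL E a b c).fst *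
      mq a b α s = (1 - ep α : OctL E a b c).fst := by
    intro t s
    have e : qmap σ (ep α : OctL E a b c).fst = ⟨1 / 2, -(1 / (2 * α)), 0, 0⟩ :=
      QuaternionAlgebra.ext h4 h5 (map_zero σ) (map_zero σ)
    have e2 : (1 - ep α : OctL E a b c).fst = ⟨1 - 1 / 2, 0 - 1 / (2 * α), 0 - 0, 0 - 0⟩ := rfl
    rw [e, e2, mq, mq]
    apply QuaternionAlgebra.ext
    · simp only [QuaternionAlgebra.re_mul, QuaternionAlgebra.imI_mul, QuaternionAlgebra.imJ_mul,
        QuaternionAlgebra.imK_mul, ha]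
      field_simp
      ring
    · simp only [QuaternionAlgebra.re_mul, QuaternionAlgebra.imI_mul, QuaternionAlgebra.imJ_mul,
        QuaternionAlgebra.imK_mul, ha]
      field_simp
      ring
    · simp only [QuaternionAlgebra.re_mul, QuaternionAlgebra.imI_mul, QuaternionAlgebra.imJ_mul,
        QuaternionAlgebra.imK_mul, ha]
      ring
    · simp only [QuaternionAlgebra.re_mul, QuaternionAlgebra.imI_mul, QuaternionAlgebra.imJ_mul,
        QuaternionAlgebra.imK_mul, ha]
      ring
  apply Oct.ext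
  · exact key _ _
  · have e : qmap σ (ep α : OctL E a b c).snd = 0 :=
      QuaternionAlgebra.ext (map_zero σ) (map_zero σ) (map_zero σ) (map_zero σ)
    change qmap σ (ep α : OctL E a b c).snd * _ = 0 - 0
    rw [e, zero_mul, sub_zero]

omit [NeZero (2 : E)] in
theorem extE_one (g : AutC a b c) : extE E g.1 (1 : OctL E a b c) = 1 := by
  rw [← oup_one, extE_oup, aut_one]

theorem extE_ep (g : fixI a b c) : extE E g.1.1 (ep α : OctL E a b c) = ep α := by
  rw [ep_eq, map_add, map_smul, map_smul, extE_oup, extE_oup, aut_one, mem_fixI.mp g.2]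

theorem extE_mo (g : fixI a b c) (t : E) : extE E g.1.1 (mo α t : OctL E a b c) = mo α t := by
  rw [mo_eq, map_add, map_smul, map_sub, extE_ep, extE_one]

theorem extE_Jm (g : fixI a b c) (x : OctL E a b c) :
    extE E g.1.1 (Jm ρ σ α q x) = Jm ρ σ α q (extE E g.1.1 x) := by
  have h1 : ∀ x y : OctL E a b c, extE E g.1.1 (x * y) = extE E g.1.1 x * extE E g.1.1 y :=
    fun x y => extL_mul (fun u v => g.1.2 u v) x y
  have h2 : ∀ x : OctL E a b c, omap σ (extE E g.1.1 x) = extE E g.1.1 (omap σ x) :=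
    fun x => omap_extL σ _ x
  rw [Jm_eq, Jm_eq, h1, h1, extE_mo, extE_mo, h2]

omit [NeZero (2 : E)] [IsScalarTower k L E] [Algebra k L] [Algebra L E] [Field L] in
theorem extE_mul (g h : AutC a b c) : extE E (g * h).1 = extE E g.1 * extE E h.1 := by
  refine equiv_unique fun x => ?_
  rw [extE_oup, LinearEquiv.mul_apply, extE_oup, extE_oup]
  rfl

omit [NeZero (2 : E)] [IsScalarTower k L E] [Algebra k L] [Algebra L E] [Field L] in
theorem extE_id : extE E (1 : AutC a b c).1 = 1 := by
  refine equiv_unique fun x => ?_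
  rw [extE_oup]
  rfl

theorem extE_mem (g : fixI a b c) : extE E g.1.1 ∈ GT ρ σ α a b c q :=
  ⟨tri_extL ρ (fun u v => g.1.2 u v) (aut_star g.1), extE_Jm g⟩

/-- The extension of scalars. -/
def extI (ρ σ : E ≃ₐ[k] E) (α : E) (a b c : kˣ) (q : Lˣ) : fixI a b c →* GT ρ σ α a b c q where
  toFun g := ⟨extE E g.1.1, extE_mem g⟩
  map_one' := Subtype.ext extE_id
  map_mul' g h := Subtype.ext (extE_mul g.1 h.1)

variable (H : Hy ρ σ ρL α a b c q)

include H

omit [NeZero (2 : E)] in
theorem al0 : α ≠ 0 := by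
  intro h
  have := H.α2
  rw [h, mul_zero] at this
  exact a.ne_zero ((map_eq_zero _).mp this.symm)

/-- The fixed field. -/
theorem fixE [CharZero k] {t : E} (h1 : ρ t = t) (h2 : σ t = t) :
    ∃ s : k, algebraMap k E s = t := by
  have hα := al0 H
  have hf : FiniteDimensional L E := Module.finite_of_finrank_pos (by rw [H.h2]; norm_num)
  have h : ¬ LinearIndependent L ![1, α, t] := fun h => by
    have := h.fintype_card_le_finrank
    rw [H.h2] at this
    simp at this
  rw [Fintype.not_linearIndependent_iff] at h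
  obtain ⟨f, hf, i, hi⟩ := h
  simp only [Fin.sum_univ_three, Matrix.cons_val_zero, Matrix.cons_val_one, Matrix.cons_val,
    Algebra.smul_def, mul_one] at hf
  have hf' := congrArg σ hf
  simp only [map_add, map_mul, H.σL, H.σα, h2, map_zero] at hf'
  have h3 : (2 : E) * (algebraMap L E (f 1) * α) = 0 := by linear_combination hf - hf'
  have h4 : f 1 = 0 := by
    have h5 := (mul_eq_zero.mp h3).resolve_left (NeZero.ne 2)
    exact (map_eq_zero _).mp ((mul_eq_zero.mp h5).resolve_right hα)
  rw [h4, map_zero, zero_mul, add_zero] at hf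
  have h5 : f 2 ≠ 0 := by
    intro h5
    rw [h5, map_zero, zero_mul, add_zero] at hf
    have h6 : f 0 = 0 := (map_eq_zero _).mp hf
    fin_cases i
    · exact hi h6
    · exact hi h4
    · exact hi h5
  obtain ⟨u, hu⟩ : ∃ u : L, algebraMap L E u = t := by
    refine ⟨-(f 0) / f 2, ?_⟩
    have h6 : algebraMap L E (f 2) ≠ 0 := fun h => h5 ((map_eq_zero _).mp h)
    rw [map_div₀, map_neg]
    field_simp
    linear_combination -hf
  have h6 : ρL u = u := by
    apply (algebraMap L E).injective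
    rw [← H.ρL', hu, h1]
  obtain ⟨s, hs⟩ := E6I.rho_fix H.h3 H.ρ1 h6
  exact ⟨s, by rw [IsScalarTower.algebraMap_apply k L E, hs, hu]⟩

theorem exists_oup [CharZero k] {y : OctL E a b c} (h1 : omap ρ y = y) (h2 : omap σ y = y) :
    ∃ x : Oct a b c, oup E x = y := by
  have key : ∀ f : OctL E a b c → E, (∀ (τ : E ≃ₐ[k] E) z, f (omap τ z) = τ (f z)) →
      ∃ s : k, algebraMap k E s = f y := fun f hf =>
    fixE H (by rw [← hf, h1]) (by rw [← hf, h2])
  obtain ⟨s1, e1⟩ := key (fun z => z.fst.re) fun _ _ => rfl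
  obtain ⟨s2, e2⟩ := key (fun z => z.fst.imI) fun _ _ => rfl
  obtain ⟨s3, e3⟩ := key (fun z => z.fst.imJ) fun _ _ => rfl
  obtain ⟨s4, e4⟩ := key (fun z => z.fst.imK) fun _ _ => rfl
  obtain ⟨s5, e5⟩ := key (fun z => z.snd.re) fun _ _ => rfl
  obtain ⟨s6, e6⟩ := key (fun z => z.snd.imI) fun _ _ => rfl
  obtain ⟨s7, e7⟩ := key (fun z => z.snd.imJ) fun _ _ => rfl
  obtain ⟨s8, e8⟩ := key (fun z => z.snd.imK) fun _ _ => rfl
  refine ⟨⟨⟨s1, s2, s3, s4⟩, ⟨s5, s6, s7, s8⟩⟩, ?_⟩
  apply Oct.ext
  · exact QuaternionAlgebra.ext e1 e2 e3 e4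
  · exact QuaternionAlgebra.ext e5 e6 e7 e8

/-- The facts on the elements which fix `e₊`. -/
theorem facts {g : OctL E a b c ≃ₗ[E] OctL E a b c} (hg : g ∈ GT ρ σ α a b c q)
    (he : g (ep α) = ep α) : g 1 = 1 ∧ (∀ x y, g (x * y) = g x * g y) ∧
      (∀ x, g (omap ρ x) = omap ρ (g x)) ∧ ∀ x, g (omap σ x) = omap σ (g x) := by
  obtain ⟨hg1, hg2⟩ := hg
  have h1 : g 1 = 1 := by
    have h2 := hg2 (ep α)
    rw [he, Jm_ep H.α2 H.σα] at h2
    have h3 : (1 : OctL E a b c) = (1 - ep α) + ep α := by abel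
    conv_lhs => rw [h3]
    rw [map_add, h2, he]
    abel
  have hA : ∀ x, g (omap ρ (star x)) = omap ρ (star (g x)) := by
    intro x
    have h2 := hg1 x 1
    simpa [tri, h1] using h2
  have hB : ∀ x, g (omap ρ (omap ρ (star x))) = omap ρ (omap ρ (star (g x))) := by
    intro x
    have h2 := hg1 1 x
    simpa [tri, h1] using h2
  have hC : ∀ x, g (omap ρ (omap ρ x)) = omap ρ (omap ρ (g x)) := by
    intro x
    have h2 := hA (omap ρ (star x))
    rw [← omap_star, star_star] at h2
    rw [h2, hA, ← omap_star, star_star]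
  have hρ3 : ∀ x : OctL E a b c, omap ρ (omap ρ (omap ρ x)) = x := by
    intro x
    apply Oct.ext
    · apply QuaternionAlgebra.ext <;> exact H.ρ3 _
    · apply QuaternionAlgebra.ext <;> exact H.ρ3 _
  have hS : ∀ x, g (star x) = star (g x) := by
    intro x
    have h2 := hB x
    rw [hC] at h2
    have h3 := congrArg (omap ρ) h2
    rwa [hρ3, hρ3] at h3
  have hρ : ∀ x, g (omap ρ x) = omap ρ (g x) := by
    intro x
    have h2 := hA (star x)
    rwa [star_star, hS, star_star] at h2
  have hm : ∀ x y, g (x * y) = g x * g y := by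
    intro x y
    have h2 := hg1 (star (omap ρ (omap ρ x))) (star (omap ρ y))
    simp only [tri, star_star, hρ3] at h2
    rw [h2, hS, star_star, hC, hS, star_star, hρ, hρ3, hρ3]
  refine ⟨h1, hm, hρ, fun x => ?_⟩
  have hmo : ∀ t : E, g (mo α t) = mo α t := by
    intro t
    rw [mo_eq, map_add, map_smul, map_sub, he, h1]
  have h2 := hg2 x
  rw [Jm_eq, Jm_eq, hm, hm, hmo, hmo] at h2
  have hn : ∀ t : E, t ≠ 0 → Oct.norm (mo α t : OctL E a b c) ≠ 0 := by
    intro t ht
    have e : Oct.norm (mo α t : OctL E a b c) = t := by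
      have h2 : (2 : E) ≠ 0 := NeZero.ne 2
      have hα := al0 H
      have ha : ((up E a : Eˣ) : E) = α * α := H.α2.symm
      simp only [Oct.norm, mo, mq, nrd, ha, QuaternionAlgebra.re_zero, QuaternionAlgebra.imI_zero,
        QuaternionAlgebra.imJ_zero, QuaternionAlgebra.imK_zero]
      field_simp
      ring
    rw [e]
    exact ht
  have hq : algebraMap L E (q : L) ≠ 0 := fun h => q.ne_zero ((map_eq_zero _).mp h)
  have hq' : algebraMap L E (q : L) * ρ (algebraMap L E (q : L)) ≠ 0 :=
    mul_ne_zero hq fun h => hq ((map_eq_zero _).mp h)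
  have h3 := congrArg (fun z : OctL E a b c => z * star (mo α
    (algebraMap L E (q : L) * ρ (algebraMap L E (q : L))))) h2
  simp only [mul_mul_star] at h3
  have h4 := congrArg (fun z : OctL E a b c => (Oct.norm (mo α (algebraMap L E (q : L) *
    ρ (algebraMap L E (q : L))) : OctL E a b c))⁻¹ • z) h3
  simp only [smul_smul, inv_mul_cancel₀ (hn _ hq'), one_smul] at h4
  have h5 := congrArg (fun z : OctL E a b c => star (mo α (algebraMap L E (q : L))) * z) h4
  simp only [star_mul_mul] at h5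
  have h6 := congrArg (fun z : OctL E a b c => (Oct.norm (mo α (algebraMap L E (q : L)) :
    OctL E a b c))⁻¹ • z) h5
  simpa only [smul_smul, inv_mul_cancel₀ (hn _ hq), one_smul] using h6

/-- The elements which fix `e₊` come from the ground field. -/
theorem exists_fixI [CharZero k] {g : OctL E a b c ≃ₗ[E] OctL E a b c}
    (hg : g ∈ GT ρ σ α a b c q) (he : g (ep α) = ep α) :
    ∃ g0 : fixI a b c, g = extE E g0.1.1 := by
  obtain ⟨h1, hm, hρ, hσ⟩ := facts H hg he
  have he' : g⁻¹ (ep α) = ep α := by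
    apply g.injective
    rw [he]
    exact g.apply_symm_apply _
  obtain ⟨-, hm', hρ', hσ'⟩ := facts H (Subgroup.inv_mem _ hg) he'
  have hx : ∀ x : Oct a b c, ∃ y : Oct a b c, oup E y = g (oup E x) := fun x =>
    exists_oup H (by rw [← hρ, omap_oup]) (by rw [← hσ, omap_oup])
  have hx' : ∀ x : Oct a b c, ∃ y : Oct a b c, oup E y = g⁻¹ (oup E x) := fun x =>
    exists_oup H (by rw [← hρ', omap_oup]) (by rw [← hσ', omap_oup])
  choose f hf using hx
  choose f' hf' using hx'
  let F : Oct a b c ≃ₗ[k] Oct a b c :=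
    { toFun := f
      invFun := f'
      left_inv := fun x => oup_inj (E := E) (by
        rw [hf', hf]
        exact g.symm_apply_apply _)
      right_inv := fun x => oup_inj (E := E) (by
        rw [hf, hf']
        exact g.apply_symm_apply _)
      map_add' := fun x y => oup_inj (E := E) (by rw [hf, oup_add, oup_add, map_add, hf, hf])
      map_smul' := fun t x => oup_inj (E := E) (by
        rw [hf, oup_smul, map_smul, RingHom.id_apply, oup_smul, hf]) }
  have hF : ∀ x, oup E (F x) = g (oup E x) := hf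
  have hgi : F gi = gi := oup_inj (E := E) (by
    rw [hF, gi_eq (al0 H), map_sub, map_smul, map_smul, he, oup_one, h1])
  refine ⟨⟨⟨F, fun x y => oup_inj (E := E) (by rw [hF, oup_mul, hm, oup_mul, hF, hF])⟩, hgi⟩, ?_⟩
  refine equiv_unique fun x => ?_
  rw [extE_oup]
  exact (hF x).symm

end alg

section arith

variable {k L E : Type} [Field k] [NumberField k] [Field L] [Field E]
  [Algebra k L] [Algebra k E] [Algebra L E]
  [IsScalarTower k L E] [NeZero (2 : E)] {ρ σ : E ≃ₐ[k] E} {ρL : L ≃ₐ[k] L} {α : E}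
  {a b c : kˣ} {q : Lˣ} (H : Hy ρ σ ρL α a b c q)

include H

/-- **F1a**: the automorphisms of the octonion algebra which fix `i`. -/
theorem autI_mem {g : OctL E a b c ≃ₗ[E] OctL E a b c} (hg : g ∈ GT ρ σ α a b c q)
    (he : g (ep α) = ep α) : g ∈ Rs ρ σ α a b c q := by
  obtain ⟨g0, hg0⟩ := exists_fixI H hg he
  have e1 : (⟨g, hg⟩ : GT ρ σ α a b c q) = extI ρ σ α a b c q g0 := Subtype.ext hg0
  refine ⟨⟨g, hg⟩, ?_, rfl⟩
  rw [e1]
  change extI ρ σ α a b c q g0 ∈ fres _
  rw [fres, Subgroup.mem_iInf]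
  rintro ⟨N, hN⟩
  have hfin : N.FiniteIndex := ⟨hN⟩
  have hN' : N.normalCore.index ≠ 0 := Subgroup.FiniteIndex.index_ne_zero
  have hnor : (N.normalCore.comap (extI ρ σ α a b c q)).Normal :=
    (Subgroup.normalCore_normal N).comap _
  have h := fixI_top H.hdiv (N.normalCore.comap (extI ρ σ α a b c q)) hnor
    (B.comap_index _ (Subgroup.normalCore_normal N) hN')
  have h2 : g0 ∈ N.normalCore.comap (extI ρ σ α a b c q) := by
    rw [h]
    exact Subgroup.mem_top _
  exact N.normalCore_le h2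

end arith

end Vale.Agent.P011.D4X.H369
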