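import Vale.Agent.P011.D4.BLoc
import Vale.Agent.P011.D4.B3

/-!
Block D4X, row F1a: the automorphisms of an octonion division algebra over a number field which
fix the first generator form a group without proper normal subgroups of finite index.
-/

open NumberField IsDedekindDomain Topology

namespace Vale.Agent.P011.D4.B.FI

open Vale.Agent.P011.MPQ Vale.Agent.P011.D4 Vale.Agent.P011.D4.Oct Vale.Agent.P011.Arith

section grp

variable {F : Type} [Field F]

/-- The automorphisms of the octonion algebra which fix `i`. -/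
def fixI (a b c : Fˣ) : Subgroup (AutC a b c) where
  carrier := {g | g.1 gi = gi}
  mul_mem' := by
    intro g h hg hh
    change g.1 (h.1 gi) = gi
    have hh' : h.1 gi = gi := hh
    rw [hh']
    exact hg
  one_mem' := rfl
  inv_mem' := by
    intro g hg
    have hg' : g.1 gi = gi := hg
    have h : g⁻¹.1 (g.1 gi) = gi := by
      have h1 : (g⁻¹ * g).1 gi = gi := by rw [inv_mul_cancel]; rfl
      exact h1
    rw [hg'] at h
    exact h

variable {a b c a' b' c' : Fˣ}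

theorem mem_fixI {g : AutC a b c} : g ∈ fixI a b c ↔ g.1 gi = gi := Iff.rfl

/-- The long subgroup, inside the stabiliser of `i`. -/
def longI (a b c : Fˣ) : SL1 a b →* fixI a b c where
  toFun t := ⟨long a b c t, long_gi t⟩
  map_one' := Subtype.ext (map_one _)
  map_mul' s t := Subtype.ext (map_mul _ s t)

/-- Transport along an isomorphism which fixes `i`. -/
def conjI (Φ : Oct a b' c' ≃ₗ[F] Oct a b c) (hΦ : ∀ x y, Φ (x * y) = Φ x * Φ y)
    (hi : Φ gi = gi) : fixI a b' c' →* fixI a b c where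
  toFun g := ⟨conjA Φ hΦ g.1, by
    change Φ (g.1.1 (Φ.symm gi)) = gi
    have h : Φ.symm gi = gi := by rw [← hi, Φ.symm_apply_apply]
    rw [h, mem_fixI.mp g.2, hi]⟩
  map_one' := Subtype.ext (map_one _)
  map_mul' s t := Subtype.ext (map_mul _ s.1 t.1)

/-- The property of a subgroup: it contains the automorphisms fixing a basic pair `i`, `u` with
square `b'` which are close to one. -/
def HasLi (N : Subgroup (AutC a b c)) (V : Set F) (b' : Fˣ) : Prop :=
  ∀ (c' : Fˣ) (u m : Oct a b c), Trip a b' c' gi u m → ∀ g : AutC a b c, g.1 gi = gi →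
    g.1 u = u → norm (g.1 m - m) / norm m ∈ V → g ∈ N

/-- The algebraic end of the near step. -/
theorem final_algI (h2 : (2 : F) ≠ 0) (hdiv : Division a b c) (N : Subgroup (AutC a b c))
    {c1 : Fˣ} {V : Set F} (hL1 : HasLi N V c1) (hL2 : HasLi N V c) {y1 : Oct a b c}
    (hny1 : norm y1 = -c) {P : AutC a b c} (hPN : P ∈ N) (hP1 : P.1 gi = gi) (hP3 : P.1 gl = y1)
    {t : SL1 a b} {x : Qt a b} (hx : x = ((t : (Qt a b)ˣ) : Qt a b)) {u : Oct a b c}
    (Pu : Pair gi u) (hun : norm u = -c1) (hp : Perp gi u (Y x - y1)) (hD : (Y x : Oct a b c) ≠ y1)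
    (hG1 : norm ((Y x : Oct a b c) - y1) / norm (y1 - proj gi u y1) ∈ V)
    (hG2 : norm ((gj : Oct a b c) - mv gi u (y1 - proj gi u y1)
      ((y1 - proj gi u y1) + ((Y x : Oct a b c) - y1)) (P.1 gj)) / norm (gj : Oct a b c) ∈ V) :
    long a b c t ∈ N := by
  have hg := Oct.trip_std (a := a) (b := b) (c := c)
  have hgi : norm (gi : Oct a b c) = -a := norm_of_sq hg.si hg.ii
  have hnt : nrd x = 1 := by rw [hx]; exact t.2
  have hnY : norm (Y x : Oct a b c) = -c := by rw [norm_Y, hnt, mul_one]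
  obtain ⟨m, hm, hm0, α, β, γ, hα, hβ, T4, φ, hφ, hφ1, hφ2, hφ3, hφ4⟩ := exists_move_of h2 hdiv
    (x := y1) (y := Y x) Pu (by rw [hny1, hnY]) hp hD
  have hαa : α = a := Units.ext (by rw [hα, hgi, neg_neg])
  have hβc : β = c1 := Units.ext (by rw [hβ, hun, neg_neg])
  rw [hαa, hβc] at T4
  have hφN : φ ∈ N := by
    refine hL1 γ u m T4 φ hφ1 hφ2 ?_
    rw [hφ3, add_sub_cancel_left, hm]
    exact hG1
  obtain ⟨g, hgd⟩ : ∃ g, g = long a b c t := ⟨_, rfl⟩
  have hgi' : g.1 gi = gi := by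
    rw [hgd]; apply Oct.ext
    · rfl
    · change ((t : (Qt a b)ˣ) : Qt a b) * 0 = 0; exact mul_zero _
  have hgj' : g.1 gj = gj := by
    rw [hgd]; apply Oct.ext
    · rfl
    · change ((t : (Qt a b)ˣ) : Qt a b) * 0 = 0; exact mul_zero _
  have hgl' : g.1 gl = Y x := by
    rw [hgd, hx]; apply Oct.ext
    · rfl
    · change ((t : (Qt a b)ˣ) : Qt a b) * 1 = _; exact mul_one _
  rw [← hgd]
  have hinv : ∀ (f : AutC a b c) (x : Oct a b c), f⁻¹.1 (f.1 x) = x := fun f x => by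
    have : (f⁻¹ * f).1 x = x := by rw [inv_mul_cancel]; rfl
    exact this
  obtain ⟨g', hg'⟩ : ∃ g', g' = P⁻¹ * (φ⁻¹ * g) := ⟨_, rfl⟩
  have hgg : g = φ * (P * g') := by rw [hg']; group
  have hg'a : ∀ x, g'.1 x = P⁻¹.1 (φ⁻¹.1 (g.1 x)) := fun x => by rw [hg']; rfl
  have e1 : g'.1 gi = gi := by
    rw [hg'a, hgi']
    conv_lhs => rw [← hφ1, hinv, ← hP1, hinv]
  have e2 : g'.1 gl = gl := by
    rw [hg'a, hgl', ← hφ4, hinv, ← hP3, hinv]
  have hg'N : g' ∈ N := by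
    refine hL2 b gl gj trip_swap g' e1 e2 ?_
    have e3 : Oct.norm (g'.1 gj - gj) = Oct.norm ((gj : Oct a b c) - φ.1 (P.1 gj)) := by
      rw [← Oct.aut_norm P, ← Oct.aut_norm φ, map_sub, map_sub]
      congr 2
      have : φ.1 (P.1 (g'.1 gj)) = g.1 gj := by rw [hgg]; rfl
      rw [this, hgj']
    rw [e3, hφ, hm]
    exact hG2
  rw [hgg]
  exact N.mul_mem hφN (N.mul_mem hPN hg'N)


end grp

section near

variable {F : Type} [Field F] {a b c a' b' c' : Fˣ}

variable [TopologicalSpace F] [IsTopologicalRing F] [ContinuousInv₀ F] [T1Space F]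

/-- The near step. -/
theorem near_stepI (h2 : (2 : F) ≠ 0) (hNT : NT F) (hdiv : Division a b c)
    (N : Subgroup (AutC a b c)) {c1 : Fˣ} {j1 : Oct a b c} (hj : Pair gi j1)
    (hj1 : norm j1 = -c1) (hl : Perp gi j1 (gl : Oct a b c)) {V : Set F} (hV : IsOpen V)
    (hV0 : (0 : F) ∈ V) (hL1 : HasLi N V c1) (hL2 : HasLi N V c) {p q : F}
    (hpq : p ^ 2 - a * q ^ 2 = 1) (hp : 2 - 2 * p ∈ V) (hp1 : p ≠ 1) :
    ∃ A ∈ 𝓝 (1 : Qt a b), ∀ t : SL1 a b, ((t : (Qt a b)ˣ) : Qt a b) ∈ A → long a b c t ∈ N := by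
  have hg := Oct.trip_std (a := a) (b := b) (c := c)
  have hc0 : (c : F) ≠ 0 := c.ne_zero
  have hgi : norm (gi : Oct a b c) = -a := norm_of_sq hg.si hg.ii
  have hgi0 : norm (gi : Oct a b c) ≠ 0 := by rw [hgi]; exact neg_ne_zero.mpr a.ne_zero
  have hgl : norm (gl : Oct a b c) = -c := norm_of_sq hg.sl hg.ll
  -- the vector `y1`
  obtain ⟨y1, hy1⟩ : ∃ y1 : Oct a b c, y1 = Y ⟨p, q, 0, 0⟩ := ⟨_, rfl⟩
  have hny1 : norm y1 = -c := by
    rw [hy1, norm_Y]; simp only [nrd]; linear_combination (-c : F) * hpq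
  have hy1' : y1 = p • gl + q • ((gi : Oct a b c) * gl) := by
    rw [hy1]
    apply Oct.ext
    · simp [Y, gi, gl]
    · ext <;> simp [Y, gi, gl]
  have hy1p : Perp gi j1 y1 := by
    have e1 : dot (gi * gl) j1 = 0 := by
      rw [dot_mul_left, hg.si, neg_mul, dot_neg_right, hl.pzu, neg_zero]
    refine ⟨by rw [hy1, dot_coord]; simp [Y], by rw [hy1, dot_coord]; simp [Y, gi], ?_, ?_⟩
    · rw [hy1', dot_add_left, dot_smul_left, dot_smul_left, hl.pu, e1]; ring
    · rw [hy1', dot_add_left, dot_smul_left, dot_smul_left, hl.pzu, dot_mul_left, star_mul_mul,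
        dot_smul_right, hl.pu]; ring
  have T1 : Trip a c1 c gi j1 gl := trip_of hj hl (by rw [hgi, neg_neg]) (by rw [hj1, neg_neg])
    (by rw [hgl, neg_neg])
  have T2 : Trip a c1 c gi j1 y1 := trip_of hj hy1p (by rw [hgi, neg_neg]) (by rw [hj1, neg_neg])
    (by rw [hny1, neg_neg])
  obtain ⟨P, -, hP1, hP2, hP3⟩ := exists_move h2 T1 T2
  have hd1 : norm ((Y 1 : Oct a b c) - y1) = -c * (2 - 2 * p) := by
    rw [hy1, Y_sub, norm_Y]
    simp only [nrd, QuaternionAlgebra.re_sub, QuaternionAlgebra.imI_sub, QuaternionAlgebra.imJ_sub,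
      QuaternionAlgebra.imK_sub, QuaternionAlgebra.re_one, QuaternionAlgebra.imI_one,
      QuaternionAlgebra.imJ_one, QuaternionAlgebra.imK_one]
    linear_combination (-c : F) * hpq
  have hd1' : norm ((Y 1 : Oct a b c) - y1) ≠ 0 := by
    rw [hd1]
    refine mul_ne_zero (neg_ne_zero.mpr hc0) ?_
    intro h
    apply hp1
    have : (2 : F) * (1 - p) = 0 := by linear_combination h
    have := (mul_eq_zero.mp this).resolve_left h2
    linear_combination -this
  have hPN : P ∈ N := by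
    refine hL1 c j1 gl T1 P hP1 hP2 ?_
    have e : norm (y1 - (gl : Oct a b c)) = -c * (2 - 2 * p) := by
      rw [← hd1, ← norm_neg, neg_sub]; rfl
    rw [hP3, e, hgl, mul_div_cancel_left₀ _ (neg_ne_zero.mpr hc0)]
    exact hp
  obtain ⟨w1, hw1⟩ : ∃ w1, w1 = P.1 gj := ⟨_, rfl⟩
  have hj0 : norm j1 ≠ 0 := hj.nu
  have hperp : Perp gi ((Y 1 : Oct a b c) - y1) j1 := by
    have e1 : dot j1 (gi * gl) = 0 := by
      rw [dot_comm, dot_mul_left, hg.si, neg_mul, dot_neg_right, hl.pzu, neg_zero]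
    have e2 : dot j1 (gi * y1) = 0 := by
      rw [dot_comm, dot_mul_left, hg.si, neg_mul, dot_neg_right, hy1p.pzu, neg_zero]
    refine ⟨dot_one_of_star h2 hj.su, by rw [dot_comm]; exact hj.zu, ?_, ?_⟩
    · rw [dot_sub_right, dot_comm j1 y1, hy1p.pu, dot_comm]
      change dot gl j1 - 0 = 0
      rw [hl.pu, sub_zero]
    · rw [mul_sub, dot_sub_right, e2]
      change dot j1 (gi * gl) - 0 = 0
      rw [e1, sub_zero]
  have hy10 : norm y1 ≠ 0 := by rw [hny1]; exact neg_ne_zero.mpr hc0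
  have hM1 : y1 - proj gi j1 y1 = y1 := by rw [proj_perp hy1p, sub_zero]
  have vG1 : norm ((Y 1 : Oct a b c) - y1) / norm (y1 - proj gi j1 y1) ∈ V := by
    rw [hM1, hd1, hny1, mul_div_cancel_left₀ _ (neg_ne_zero.mpr hc0)]
    exact hp
  have vG2 : norm ((gj : Oct a b c) - mv gi j1 (y1 - proj gi j1 y1)
        ((y1 - proj gi j1 y1) + ((Y 1 : Oct a b c) - y1)) w1) / norm (gj : Oct a b c) ∈ V := by
    have e1 : (y1 - proj gi j1 y1) + ((Y 1 : Oct a b c) - y1) = gl := by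
      rw [hM1]; change y1 + (gl - y1) = gl; abel
    have hinv : ∀ x, P⁻¹.1 (P.1 x) = x := fun x => by
      have : (P⁻¹ * P).1 x = x := by rw [inv_mul_cancel]; rfl
      exact this
    have e2 := eq_mv h2 T2 (g := P⁻¹) (by conv_lhs => rw [← hP1, hinv])
      (by conv_lhs => rw [← hP2, hinv]) w1
    have e3 : P⁻¹.1 y1 = gl := by rw [← hP3, hinv]
    rw [e3, hw1, hinv] at e2
    rw [e1, hM1, hw1, ← e2, sub_self, ← dot_self, dot_zero_left, zero_div]
    exact hV0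
  have hG := near_cont hd1' hgi0 hj0 hy1p hy10 hV vG1 vG2
  rw [nhds_prod_eq, Filter.eventually_prod_iff] at hG
  obtain ⟨pA, hpA, pB, hpB, hG⟩ := hG
  dsimp only at hG
  have hu := exists_u h2 hNT hdiv hj hy1 hd1' hperp (B := {u | pB u}) hpB
  refine ⟨_, hpA.and hu, ?_⟩
  intro t ht
  obtain ⟨ht1, ht2, u, hu1, hu2, hu3, hu4⟩ := ht
  obtain ⟨hG1, hG2⟩ := hG (x := ((t : (Qt a b)ˣ) : Qt a b)) ht1 (y := u) hu1
  rw [hw1] at hG2
  exact final_algI h2 hdiv N hL1 hL2 hny1 hPN hP1 hP3 rfl hu2 (by rw [hu3, hj1]) hu4 ht2 hG1 hG2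


end near

section nf

variable {F : Type} [Field F] {a b c : Fˣ} in
theorem mem_of_map {M : Subgroup (fixI a b c)} {g : fixI a b c}
    (h : g.1 ∈ M.map (fixI a b c).subtype) : g ∈ M := by
  obtain ⟨g', hg', e⟩ := h
  have e1 : g' = g := Subtype.ext e
  rwa [e1] at hg'

variable {k : Type} [Field k] [NumberField k] {a b c : kˣ}

/-- Transfer of the congruence theorem. -/
theorem hasLi (hdiv : Division a b c) (M : Subgroup (fixI a b c)) (hM : M.Normal)
    (hi : M.index ≠ 0) {e : ℕ} (he : 0 < e) (hexp : ∀ g : fixI a b c, g ^ e ∈ M) {V : Set k}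
    {b' : kˣ} (hV : ∀ x ∈ V, ∀ w : HeightOneSpectrum (𝓞 k), Ram a b' w →
      w.valuation k x < w.valuation k (4 * (e : k) ^ 4)) :
    HasLi (M.map (fixI a b c).subtype) V b' := by
  intro c' u m T g hz hu hg
  have h2 : (2 : k) ≠ 0 := two_ne_zero
  obtain ⟨Φ, h1, h3, -, h4⟩ := Oct.exists_emb T
  have hΦi : Φ gi = gi := by rw [h1, emb_gi]
  obtain ⟨t, ht, hre⟩ := exists_long h2 T Φ h1 h3 h4 hz hu
  rw [hre] at hg
  have hab := (Oct.aniso_of_trip hdiv T).1
  have hN' : (M.comap ((conjI Φ h3 hΦi).comp (longI a b' c'))).Normal := hM.comap _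
  have := sl_near hab he (M.comap ((conjI Φ h3 hΦi).comp (longI a b' c'))) hN'
    (comap_index _ hM hi)
    (fun x => by rw [Subgroup.mem_comap, map_pow]; exact hexp _) t (fun w hw => hV _ hg w hw)
  rw [Subgroup.mem_comap] at this
  exact ⟨_, this, ht.symm⟩

/-- The long group lies in the normal subgroup, if `c` is close to one at the ramified places. -/
theorem long_memI (hdiv : Division a b c) (M : Subgroup (fixI a b c)) (hM : M.Normal)
    (hi : M.index ≠ 0)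
    (hc : ∀ w : HeightOneSpectrum (𝓞 k), Ram a b w → plAbv (Sum.inl w) ((c : k) - 1) <
      plAbv (Sum.inl w) 4 / (1 + plAbv (Sum.inl w) (((b : k) - 1) ^ 2 / (4 * b))))
    (t : SL1 a b) : longI a b c t ∈ M := by
  obtain ⟨N, hNd⟩ : ∃ N : Subgroup (AutC a b c), N = M.map (fixI a b c).subtype := ⟨_, rfl⟩
  have hback : ∀ t : SL1 a b, long a b c t ∈ N → longI a b c t ∈ M := by
    intro t ht
    rw [hNd] at ht
    exact mem_of_map ht
  have h2 : (2 : k) ≠ 0 := two_ne_zero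
  have h4 : (4 : k) ≠ 0 := by norm_num
  have hb0 : (b : k) ≠ 0 := b.ne_zero
  have hc0 : (c : k) ≠ 0 := c.ne_zero
  -- the vector `j1`
  obtain ⟨α, hα⟩ : ∃ α : k, α = (b + 1) / 2 := ⟨_, rfl⟩
  obtain ⟨β, hβ⟩ : ∃ β : k, β = (b - 1) / 2 := ⟨_, rfl⟩
  obtain ⟨j1, hj1⟩ : ∃ j1 : Oct a b c, j1 = ⟨⟨0, 0, α, 0⟩, ⟨0, 0, -β, 0⟩⟩ := ⟨_, rfl⟩
  have hj10 : j1 ≠ 0 := by
    intro h
    have e1 : α = 0 := by
      have := congrArg (fun x : Oct a b c => x.fst.imJ) h
      simpa [hj1] using this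
    have e2 : β = 0 := by
      have := congrArg (fun x : Oct a b c => x.snd.imJ) h
      simpa [hj1] using this
    have : (1 : k) = α - β := by rw [hα, hβ]; ring
    rw [e1, e2, sub_zero] at this
    exact one_ne_zero this
  have hnj : norm j1 = -((α ^ 2 - c * β ^ 2) * b) := by
    rw [norm_coord, hj1]; ring
  have hnj0 : norm j1 ≠ 0 := fun h => hj10 (hdiv _ h)
  obtain ⟨c1, hc1⟩ : ∃ c1 : kˣ, (c1 : k) = (α ^ 2 - c * β ^ 2) * b :=
    ⟨Units.mk0 ((α ^ 2 - c * β ^ 2) * b) (fun h => hnj0 (by rw [hnj, h, neg_zero])), rfl⟩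
  have hg := Oct.trip_std (a := a) (b := b) (c := c)
  have hgi0 : norm (gi : Oct a b c) ≠ 0 := by
    rw [norm_of_sq hg.si hg.ii]; exact neg_ne_zero.mpr a.ne_zero
  have Pj : Pair (gi : Oct a b c) j1 := by
    refine ⟨hg.si, ?_, hgi0, hnj0, ?_⟩
    · apply Oct.ext <;> ext <;> simp [hj1]
    · rw [dot_coord]; simp [gi, hj1]
  have Pl1 : Perp gi j1 (gl : Oct a b c) := by
    refine ⟨?_, ?_, ?_, ?_⟩ <;> rw [dot_coord] <;> simp [gi, gl, hj1]
  -- the local conditions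
  have hloc : ∀ w : HeightOneSpectrum (𝓞 k), Ram a b w → ¬ Ram a c w ∧ ¬ Ram a c1 w := by
    intro w hw
    have hx := hc w hw
    obtain ⟨M, hM⟩ : ∃ M, M = plAbv (Sum.inl w) (((b : k) - 1) ^ 2 / (4 * b)) := ⟨_, rfl⟩
    have hM0 : 0 ≤ M := by rw [hM]; exact (plAbv _).nonneg _
    rw [← hM, lt_div_iff₀ (by linarith)] at hx
    have hn0 := (plAbv (Sum.inl w)).nonneg ((c : k) - 1)
    have x1 : plAbv (Sum.inl w) ((c : k) - 1) < plAbv (Sum.inl w) 4 := by nlinarith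
    have x2 : plAbv (Sum.inl w) (((c : k) - 1) * (((b : k) - 1) ^ 2 / (4 * b))) <
        plAbv (Sum.inl w) 4 := by
      rw [map_mul, ← hM]; nlinarith
    rw [plAbv_lt] at x1 x2
    constructor
    · intro h
      refine h (Subgroup.mem_sup_right (mem_LS.mpr ⟨1, ?_⟩))
      simpa using x1
    · intro h
      refine h (Subgroup.mem_sup_right (mem_LS.mpr ⟨b, ?_⟩))
      have e : (c1 : k) / (b : k) ^ 2 - 1 = -(((c : k) - 1) * (((b : k) - 1) ^ 2 / (4 * b))) := by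
        rw [hc1, hα, hβ]
        field_simp
        ring
      rw [e, Valuation.map_neg]
      exact x2
  -- the set of places
  obtain ⟨S, hSd⟩ : ∃ S : Set (Pl k), S = Sum.inl '' {w | Ram a c w} ∪ Sum.inl '' {w | Ram a c1 w} ∪
    Set.range Sum.inr := ⟨_, rfl⟩
  have hS : S.Finite := by
    rw [hSd]
    exact (((ram_finite a c).image _).union ((ram_finite a c1).image _)).union (Set.finite_range _)
  have hSr : ∀ φ, (Sum.inr φ : Pl k) ∈ S := fun φ => by rw [hSd]; exact Or.inr ⟨φ, rfl⟩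
  have hne : S.Nonempty := by
    obtain ⟨φ⟩ := exists_real hdiv
    exact ⟨_, hSr φ⟩
  have hS1 : ∀ w, Ram a c w → (Sum.inl w : Pl k) ∈ S := fun w hw => by
    rw [hSd]; exact Or.inl (Or.inl ⟨w, hw, rfl⟩)
  have hS2 : ∀ w, Ram a c1 w → (Sum.inl w : Pl k) ∈ S := fun w hw => by
    rw [hSd]; exact Or.inl (Or.inr ⟨w, hw, rfl⟩)
  have hdisj : ∀ w, Ram a b w → (Sum.inl w : Pl k) ∉ S := by
    intro w hw h
    rw [hSd] at h
    rcases h with (⟨w', h1, h3⟩ | ⟨w', h1, h3⟩) | ⟨φ, h3⟩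
    · rw [Sum.inl_injective h3] at h1
      exact (hloc w hw).1 h1
    · rw [Sum.inl_injective h3] at h1
      exact (hloc w hw).2 h1
    · exact Sum.inr_ne_inl h3
  -- the exponent
  obtain ⟨e, he, hexp⟩ : ∃ e : ℕ, 0 < e ∧ ∀ g : fixI a b c, g ^ e ∈ M :=
    ⟨M.index, Nat.pos_of_ne_zero hi, fun g => M.pow_index_mem g⟩
  have he4 : (4 * (e : k) ^ 4) ≠ 0 :=
    mul_ne_zero h4 (pow_ne_zero _ (Nat.cast_ne_zero.mpr he.ne'))
  -- the near step
  obtain ⟨A, hA, hAN⟩ : ∃ A ∈ @nhds (Qt a b) (@qTop k _ a b (topS S)) 1, ∀ t : SL1 a b,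
      ((t : (Qt a b)ˣ) : Qt a b) ∈ A → long a b c t ∈ N := by
    let _ := topS S
    have i1 : IsTopologicalRing k := topS_ring
    have i2 : ContinuousInv₀ k := topS_inv
    have i3 : T1Space k := t1_topS hS hne
    have hV0 : interior {x : k | ∀ w : HeightOneSpectrum (𝓞 k), (Sum.inl w : Pl k) ∈ S →
      w.valuation k x < w.valuation k (4 * (e : k) ^ 4)} ∈ 𝓝 0 :=
      interior_mem_nhds.mpr (small_mem hS he4)
    obtain ⟨p, q, hpq1, hpq2, hpq3⟩ := exists_pq hS hne a hV0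
    refine near_stepI h2 (nt hS hSr) hdiv N Pj (by rw [hnj, hc1]) Pl1 isOpen_interior
      (mem_of_mem_nhds hV0) ?_ ?_ hpq1 hpq2 hpq3
    · rw [hNd]
      exact hasLi hdiv M hM hi he hexp fun x hx w hw => interior_subset hx w (hS2 w hw)
    · rw [hNd]
      exact hasLi hdiv M hM hi he hexp fun x hx w hw => interior_subset hx w (hS1 w hw)
  have hA' : {x : Qt a b | ((t : (Qt a b)ˣ) : Qt a b) * star x ∈ A} ∈
      @nhds (Qt a b) (@qTop k _ a b (topS S)) ((t : (Qt a b)ˣ) : Qt a b) := by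
    let _ := topS S
    have i1 : IsTopologicalRing k := topS_ring
    have h1 : Continuous fun x : Qt a b => ((t : (Qt a b)ˣ) : Qt a b) * star x := by fun_prop
    refine h1.continuousAt ?_
    have e1 : ((t : (Qt a b)ˣ) : Qt a b) * star ((t : (Qt a b)ˣ) : Qt a b) = 1 := by
      have hx : nrd ((t : (Qt a b)ˣ) : Qt a b) = 1 := t.2
      ext <;> simp [nrd] at hx ⊢
      · linear_combination hx
      all_goals ring
    rw [e1]
    exact hA
  obtain ⟨ε, hε, hεA⟩ := exists_eps hS hA'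
  -- weak approximation
  obtain ⟨T, hT⟩ : ∃ T : Set (Pl k), T = Sum.inl '' {w | Ram a b w} := ⟨_, rfl⟩
  have hTf : T.Finite := by rw [hT]; exact (ram_finite a b).image _
  have he2 : (2 * (e : k) ^ 4) ≠ 0 :=
    mul_ne_zero h2 (pow_ne_zero _ (Nat.cast_ne_zero.mpr he.ne'))
  obtain ⟨ε', hε', h5⟩ := exists_min_pos (hS.union hTf)
    (fun p => min ε (plAbv p (2 * (e : k) ^ 4))) (fun p => lt_min hε ((plAbv p).pos he2))
  have hab : Aniso a b := (Oct.aniso_of_trip hdiv hg).1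
  classical
  obtain ⟨t', ht'⟩ := wa_SL1 (hS.union hTf) hab (fun p => if p ∈ S then t else 1) hε'
  have hN' : (M.comap (longI a b c)).Normal := hM.comap _
  have f1 : longI a b c t' ∈ M := by
    have := sl_near hab he (M.comap (longI a b c)) hN' (comap_index _ hM hi)
      (fun x => by rw [Subgroup.mem_comap, map_pow]; exact hexp _) t' (fun w hw => ?_)
    · exact this
    · have hp : (Sum.inl w : Pl k) ∈ S ∪ T := Or.inr (by rw [hT]; exact ⟨w, hw, rfl⟩)
      have g1 := (ht' _ hp).1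
      simp only [if_neg (hdisj w hw)] at g1
      have g2 := (h5 _ hp).trans (min_le_right _ _)
      have g3 : plAbv (Sum.inl w) ((((t' : (Qt a b)ˣ) : Qt a b) - (((1 : SL1 a b) : (Qt a b)ˣ) :
        Qt a b)).re) < plAbv (Sum.inl w) (2 * (e : k) ^ 4) := lt_of_lt_of_le g1 g2
      rw [plAbv_lt] at g3
      have e1 : (2 : k) - 2 * ((t' : (Qt a b)ˣ) : Qt a b).re =
          -(2 * ((((t' : (Qt a b)ˣ) : Qt a b) - (((1 : SL1 a b) : (Qt a b)ˣ) : Qt a b)).re)) := by
        simp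
        ring
      have e2 : (4 : k) * (e : k) ^ 4 = 2 * (2 * (e : k) ^ 4) := by ring
      rw [e1, e2, Valuation.map_neg, map_mul, map_mul]
      exact mul_lt_mul_of_pos_left g3 (zero_lt_iff.mpr ((Valuation.ne_zero_iff _).mpr h2))
  have f2 : longI a b c (t * t'⁻¹) ∈ M := by
    apply hback
    apply hAN
    have e1 : (((t'⁻¹ : SL1 a b) : (Qt a b)ˣ) : Qt a b) = star ((t' : (Qt a b)ˣ) : Qt a b) := by
      have hx : nrd ((t' : (Qt a b)ˣ) : Qt a b) = 1 := t'.2
      have e3 : star ((t' : (Qt a b)ˣ) : Qt a b) * ((t' : (Qt a b)ˣ) : Qt a b) = 1 := by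
        ext <;> simp [nrd] at hx ⊢
        · linear_combination hx
        all_goals ring
      have e4 : (((t'⁻¹ : SL1 a b) : (Qt a b)ˣ) : Qt a b) = (((t' : (Qt a b)ˣ)⁻¹ : (Qt a b)ˣ) : Qt a b) :=
        rfl
      rw [e4]
      exact Units.inv_eq_of_mul_eq_one_left e3
    have e2 : (((t * t'⁻¹ : SL1 a b) : (Qt a b)ˣ) : Qt a b) =
        ((t : (Qt a b)ˣ) : Qt a b) * star ((t' : (Qt a b)ˣ) : Qt a b) := by
      rw [← e1]; rfl
    rw [e2]
    refine hεA _ fun p hp => ?_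
    have g1 := ht' p (Or.inl hp)
    simp only [if_pos hp] at g1
    have g2 := (h5 p (Or.inl hp)).trans (min_le_left _ _)
    exact ⟨lt_of_lt_of_le g1.1 g2, lt_of_lt_of_le g1.2.1 g2, lt_of_lt_of_le g1.2.2.1 g2,
      lt_of_lt_of_le g1.2.2.2 g2⟩
  have f3 : longI a b c t = longI a b c (t * t'⁻¹) * longI a b c t' := by
    rw [← map_mul, inv_mul_cancel_right]
  rw [f3]
  exact M.mul_mem f2 f1

/-- An automorphism fixing a basic pair lies in the normal subgroup. -/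
theorem fix_memI (hdiv : Division a b c) (M : Subgroup (fixI a b c)) (hM : M.Normal)
    (hi : M.index ≠ 0) {j : Oct a b c} (hj1 : star j = -j) (hj0 : j ≠ 0) (hij : dot gi j = 0)
    {g : fixI a b c} (hgj : g.1.1 j = j) : g ∈ M := by
  have h2 : (2 : k) ≠ 0 := two_ne_zero
  obtain ⟨i, hid⟩ : ∃ i : Oct a b c, i = gi := ⟨_, rfl⟩
  have hg := Oct.trip_std (a := a) (b := b) (c := c)
  have hi1 : star i = -i := by rw [hid]; exact hg.si
  have hni : norm i = -(a : k) := by rw [hid]; exact norm_of_sq hg.si hg.ii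
  have hi0 : i ≠ 0 := by
    intro h
    rw [h, norm_coord] at hni
    have := a.ne_zero
    apply this
    simp at hni
  have hgi : g.1.1 i = i := by rw [hid]; exact g.2
  rw [← hid] at hij
  have P : Pair i j := ⟨hi1, hj1, fun h => hi0 (hdiv _ h), fun h => hj0 (hdiv _ h), hij⟩
  obtain ⟨l0, hl00, hl0⟩ := Oct.exists_perp (![1, i, j, i * j, 0, 0, 0] : Fin 7 → Oct a b c)
  have Pl0 : Perp i j l0 := ⟨hl0 0, hl0 1, hl0 2, hl0 3⟩
  have hn0 : norm l0 ≠ 0 := fun h => hl00 (hdiv _ h)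
  have ha' : (a : k) = -norm i := by rw [hni, neg_neg]
  obtain ⟨b', hb'⟩ : ∃ b' : kˣ, (b' : k) = -norm j := ⟨Units.mk0 _ (neg_ne_zero.mpr P.nu), rfl⟩
  obtain ⟨c0, hc0⟩ : ∃ c0 : kˣ, (c0 : k) = -norm l0 := ⟨Units.mk0 _ (neg_ne_zero.mpr hn0), rfl⟩
  have T0 : Trip a b' c0 i j l0 := trip_of P Pl0 ha' hb' hc0
  have hc00 : (c0 : k) ≠ 0 := c0.ne_zero
  -- the choice of the norm
  obtain ⟨Mf, hMf⟩ : ∃ Mf : Pl k → ℝ, Mf = fun p =>
    plAbv p 4 / (1 + plAbv p (((b' : k) - 1) ^ 2 / (4 * b'))) := ⟨_, rfl⟩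
  have hM0 : ∀ p, 0 < Mf p := fun p => by
    rw [hMf]
    refine div_pos ((plAbv p).pos (by norm_num)) ?_
    have := (plAbv p).nonneg (((b' : k) - 1) ^ 2 / (4 * b'))
    linarith
  have hfin : (Sum.inl '' {w | Ram a b' w} ∪ Set.range Sum.inr : Set (Pl k)).Finite :=
    ((ram_finite a b').image _).union (Set.finite_range _)
  obtain ⟨x, hx⟩ := approx _ hfin (fun p => match p with
    | .inl _ => (c0 : k)⁻¹
    | .inr _ => 1) (fun p => match p with
    | .inl w => Mf (.inl w) / plAbv (.inl w) (c0 : k)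
    | .inr _ => 1 / 2) (by
      rintro (w | φ)
      · exact div_pos (hM0 _) ((plAbv _).pos hc00)
      · norm_num)
  have hpos : ∀ φ : k →+* ℝ, 0 < φ x := by
    intro φ
    have h1 := hx (Sum.inr φ) (Or.inr ⟨φ, rfl⟩)
    simp only [plAbv_inr, map_sub, map_one] at h1
    rw [abs_lt] at h1
    linarith [h1.1]
  obtain ⟨φ0⟩ := exists_real hdiv
  have hx0 : x ≠ 0 := by
    rintro rfl
    have := hpos φ0
    rw [map_zero] at this
    exact lt_irrefl _ this
  obtain ⟨q, hq⟩ := exists_nrd (a := a) (b := b') (Units.mk0 x hx0) (fun φ _ _ => hpos φ)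
  rw [Units.val_mk0] at hq
  obtain ⟨hl1, hl2⟩ := exists_exact h2 T0 q
  obtain ⟨l, hl⟩ : ∃ l, l = qemb i j q * l0 := ⟨_, rfl⟩
  rw [← hl] at hl1 hl2
  obtain ⟨c', hc'⟩ : ∃ c' : kˣ, (c' : k) = c0 * x := ⟨c0 * Units.mk0 x hx0, by simp⟩
  have T : Trip a b' c' i j l := trip_of P hl2 ha' hb' (by rw [hl1, hq, hc', hc0]; ring)
  obtain ⟨Φ, h1, h3, -, h4⟩ := Oct.exists_emb T
  have hΦi : Φ gi = gi := by rw [h1, emb_gi, hid]
  obtain ⟨t, ht, -⟩ := exists_long h2 T Φ h1 h3 h4 hgi hgj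
  have hN' : (M.comap (conjI Φ h3 hΦi)).Normal := hM.comap _
  have hmem := long_memI (Oct.aniso_of_trip hdiv T).2.2.2 (M.comap (conjI Φ h3 hΦi)) hN'
    (comap_index _ hM hi) (fun w hw => ?_) t
  · have e1 : g = conjI Φ h3 hΦi (longI a b' c' t) := Subtype.ext ht
    rw [e1]
    exact hmem
  · have h5 := hx (Sum.inl w) (Or.inl ⟨w, hw, rfl⟩)
    simp only at h5
    rw [lt_div_iff₀ ((plAbv _).pos hc00), ← map_mul] at h5
    have e1 : (c' : k) - 1 = (x - (c0 : k)⁻¹) * c0 := by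
      rw [hc']
      field_simp
    rw [e1]
    rw [hMf] at h5
    exact h5

/-- **The stabiliser of `i`.** -/
theorem fixI_top (hdiv : Division a b c) (M : Subgroup (fixI a b c)) (hM : M.Normal)
    (hi : M.index ≠ 0) : M = ⊤ := by
  rw [eq_top_iff]
  intro g _
  have hstd := Oct.trip_std (a := a) (b := b) (c := c)
  have hi0 : (gi : Oct a b c) ≠ 0 := by
    intro h
    have := congrArg (fun x : Oct a b c => x.fst.imI) h
    simp [gi] at this
  have hj0 : (gj : Oct a b c) ≠ 0 := by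
    intro h
    have := congrArg (fun x : Oct a b c => x.fst.imJ) h
    simp [gj] at this
  have hg1 : g.1.1 gi = gi := g.2
  obtain ⟨ψ, hψN, hψ⟩ : ∃ ψ ∈ M, ψ.1.1 gj = g.1.1 gj := by
    obtain ⟨z, hz0, hz⟩ := Oct.exists_perp
      (![1, gi, g.1.1 gj - gj, gi * (g.1.1 gj - gj), 0, 0, 0] : Fin 7 → Oct a b c)
    have hz1 : dot z 1 = 0 := hz 0
    have hz2 : dot z gi = 0 := hz 1
    have hz3 : dot z (g.1.1 gj - gj) = 0 := hz 2
    have hz4 : dot z (gi * (g.1.1 gj - gj)) = 0 := hz 3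
    have hz' := Oct.star_iff_dot.2 hz1
    have hzi : dot gi z = 0 := by rw [dot_comm, hz2]
    obtain ⟨ψ, h1, h2, h3⟩ := Oct.exists_move hdiv hstd.si hi0 hz' hz0 hzi hstd.sj
      (by rw [← Oct.aut_star, hstd.sj, map_neg]) (Oct.aut_norm g.1 gj)
      (by
        rw [dot_sub_right, hstd.ij, sub_zero]
        nth_rewrite 1 [← hg1]
        rw [Oct.aut_dot, hstd.ij]) hz3
      (by rw [Oct.dot_mul_left, hstd.si, neg_mul, Oct.dot_neg_right, hz4, neg_zero])
    exact ⟨⟨ψ, h1⟩, fix_memI hdiv M hM hi hz' hz0 hzi h2, h3⟩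
  have h2 : (ψ⁻¹ * g).1.1 gj = gj := by
    change ψ.1⁻¹.1 (g.1.1 gj) = gj
    rw [← hψ]
    change (ψ.1⁻¹ * ψ.1).1 gj = gj
    rw [inv_mul_cancel]
    rfl
  have h3 := fix_memI hdiv M hM hi hstd.sj hj0 hstd.ij h2
  have h4 := mul_mem hψN h3
  rwa [mul_inv_cancel_left] at h4

end nf

end Vale.Agent.P011.D4.B.FI
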