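import Vale.Agent.P011.D4X.H369.Gen2B

/-!
Block D4X, row gen2: the stabiliser of the standard plane.
-/

open NumberField Topology

set_option linter.unusedSectionVars false

namespace Vale.Agent.P011.D4X

open Vale.Agent.P011.MPQ Vale.Agent.P011.D4 Vale.Agent.P011.D4.Oct Vale.Agent.P011.D4.Em
open Vale.Agent.P011.E6 (tripO tripO_oup)
open Vale.Agent.P011.D4.B.FI (fixI fixI_top mem_fixI)

namespace H369

section zmain

variable {k L E : Type} [Field k] [Field L] [Field E] [Algebra k L] [Algebra k E] [Algebra L E]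
  [IsScalarTower k L E] [NeZero (2 : E)] {ρ σ : E ≃ₐ[k] E} {ρL : L ≃ₐ[k] L} {α : E}
  {a b c b' c' : kˣ} {q : Lˣ}

/-- Similitudes of cyclic compositions are similitudes of the norms. -/
theorem norm_sim (hρ : ∀ x, ρ (ρ (ρ x)) = x) {Z : OctL E a b c ≃ₗ[E] OctL E a b' c'} {κ : E}
    (h1 : ∀ x y, Z (tri ρ x y) = κ • tri ρ (Z x) (Z y)) (x : OctL E a b c) :
    ρ (Oct.norm x) = κ * ρ (ρ κ) * ρ (Oct.norm (Z x)) := by
  have e1 : ρ (Oct.norm x) • Z 1 = (κ * ρ (ρ κ) * ρ (Oct.norm (Z x))) • Z 1 := by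
    calc ρ (Oct.norm x) • Z 1 = Z (tri ρ x (tri ρ 1 x)) := by rw [tri_tri' hρ, map_smul]
      _ = _ := by
        rw [h1, h1, tri_smul_right, tri_tri' hρ, smul_smul, smul_smul, mul_assoc]
  have e2 : Z 1 ≠ 0 := by
    intro h
    have h3 : (1 : OctL E a b c) = 0 := Z.injective (by rw [h, map_zero])
    have h4 := congrArg (fun z : OctL E a b c => z.fst.re) h3
    exact one_ne_zero h4
  exact smul_left_injective E e2 e1

theorem t0_xj (s t : E) : t0 E a b c (xj α s t : OctL E a b c) = xj α s t := by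
  apply Oct.ext
  · rfl
  · exact neg_zero

/-- The comparison of the invariants. -/
theorem zmain (H : Hy ρ σ ρL α a b c q) {Z : OctL E a b c ≃ₗ[E] OctL E a b' c'} {κ t : E}
    (h1 : ∀ x y, Z (tri ρ x y) = κ • tri ρ (Z x) (Z y)) (hκ : κ ≠ 0)
    (h2 : ∀ x, Z (Jm ρ σ α q x) = Jm ρ σ α q (Z x))
    (h3 : ∀ x, Z (t0 E a b c x) = t0 E a b' c' (Z x)) (he : Z (ep α) = t • ep α) :
    ∃ s : E, s ≠ 0 ∧ t ≠ 0 ∧
      algebraMap k E (b : k) * (t * σ t) = algebraMap k E (b' : k) * (s * σ s) := by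
  have n2 : (2 : E) ≠ 0 := NeZero.ne 2
  have hα0 := al0 H
  have ht : t ≠ 0 := by
    rintro rfl
    rw [zero_smul] at he
    have h5 : (ep α : OctL E a b c) = 0 := Z.injective (by rw [he, map_zero])
    have h6 : (1 / 2 : E) = 0 := congrArg (fun z : OctL E a b c => z.fst.re) h5
    exact (one_div_ne_zero n2) h6
  have hem : Z (1 - ep α) = σ t • (1 - ep α) := by
    rw [← Jm_ep (ρ := ρ) (q := q) H.α2 H.σα, h2, he, Jm_smul', Jm_ep H.α2 H.σα]
  have hσt : σ t ≠ 0 := (map_ne_zero σ).mpr ht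
  -- the line `e₊ j`
  obtain ⟨s, hs⟩ : ∃ s : E, Z (xj α 1 0) = s • xj α 1 0 := by
    apply line_xj H.α2 H.ρα
    · have e := h3 (xj α 1 0)
      rw [t0_xj] at e
      have e' := congrArg Oct.snd e
      change (Z (xj α 1 0)).snd = -(Z (xj α 1 0)).snd at e'
      have e3 : (2 : E) • (Z (xj α 1 0)).snd = 0 := by
        rw [two_smul]
        nth_rewrite 1 [e']
        exact neg_add_cancel _
      exact (smul_eq_zero.mp e3).resolve_left n2
    · have e := h1 (ep α) (xj α 1 0)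
      rw [tri_ep_xj H.α2 H.ρα, map_zero, he, tri_smul_left, smul_smul] at e
      exact (smul_eq_zero.mp e.symm).resolve_left (mul_ne_zero hκ ((map_ne_zero ρ).mpr ht))
    · have e := h1 (xj α 1 0) (1 - ep α)
      rw [tri_xj_em H.α2 H.ρα, map_zero, hem, tri_smul_right, smul_smul] at e
      exact (smul_eq_zero.mp e.symm).resolve_left
        (mul_ne_zero hκ ((map_ne_zero ρ).mpr ((map_ne_zero ρ).mpr hσt)))
  have hq0 : algebraMap L E q * ρ (algebraMap L E q) ≠ 0 := by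
    have : algebraMap L E (q : L) ≠ 0 := (map_ne_zero _).mpr q.ne_zero
    exact mul_ne_zero this ((map_ne_zero ρ).mpr this)
  have hs' : Z (xj α 0 1) = σ s • xj α 0 1 := by
    have e := h2 (xj α 1 0)
    rw [Jm_xj H.α2 H.σα, map_smul, hs, Jm_smul', Jm_xj H.α2 H.σα, smul_comm] at e
    exact smul_right_injective _ hq0 e
  have hs0 : s ≠ 0 := by
    rintro rfl
    rw [zero_smul] at hs
    have h5 : (xj α 1 0 : OctL E a b c) = 0 := Z.injective (by rw [hs, map_zero])
    have h6 : ((1 + 0) / 2 : E) = 0 := congrArg (fun z : OctL E a b c => z.fst.imJ) h5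
    rw [add_zero] at h6
    exact (one_div_ne_zero n2) h6
  refine ⟨s, hs0, ht, ?_⟩
  -- the norms
  have e1 := norm_sim H.ρ3 h1 (1 : OctL E a b c)
  have e2 : (1 : OctL E a b c) = (1 : E) • ep α + (1 : E) • (1 - ep α) := by
    rw [one_smul, one_smul, add_sub_cancel]
  have e3 : Z 1 = t • ep α + σ t • (1 - ep α) := by
    rw [e2, map_add, map_smul, map_smul, he, hem, one_smul, one_smul]
  rw [e3, norm_mo H.α2 hα0, e2, norm_mo H.α2 hα0, mul_one, map_one] at e1
  have e4 := norm_sim H.ρ3 h1 (xj α 1 1 : OctL E a b c)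
  have e5 : (xj α 1 1 : OctL E a b c) = xj α 1 0 + xj α 0 1 := by
    rw [xj_add, add_zero, zero_add]
  have e6 : Z (xj α 1 1) = xj α s (σ s) := by
    rw [e5, map_add, hs, hs', xj_smul, xj_smul, xj_add, mul_one, mul_zero, mul_zero, mul_one,
      add_zero, zero_add]
  rw [e6, norm_xj H.α2 hα0, norm_xj H.α2 hα0, mul_one, mul_one] at e4
  have hC : κ * ρ (ρ κ) ≠ 0 := by
    intro h
    rw [h, zero_mul] at e1
    exact one_ne_zero e1
  apply ρ.injective
  apply mul_left_cancel₀ hC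
  simp only [map_mul, map_neg] at e1 e4 ⊢
  linear_combination ρ (algebraMap k E (b : k)) * e1.symm - e4

end zmain

section fin

variable {k L E : Type} [Field k] [CharZero k] [Field L] [Field E] [Algebra k L] [Algebra k E]
  [Algebra L E] [IsScalarTower k L E] [NeZero (2 : E)] {ρ σ : E ≃ₐ[k] E} {ρL : L ≃ₐ[k] L} {α : E}
  {a b c b' c' : kˣ} {q : Lˣ}

/-- The norm from the quadratic extension. -/
theorem exists_pr (H : Hy ρ σ ρL α a b c q) {s t : E} (hs : s ≠ 0) (ht : t ≠ 0)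
    (h : algebraMap k E (b : k) * (t * σ t) = algebraMap k E (b' : k) * (s * σ s)) :
    ∃ p r : k, (b : k) * (p ^ 2 - a * r ^ 2) = b' := by
  have hb0 : algebraMap k E (b : k) ≠ 0 := (map_ne_zero _).mpr b.ne_zero
  have hb0' : algebraMap k E (b' : k) ≠ 0 := (map_ne_zero _).mpr b'.ne_zero
  have hσs : σ s ≠ 0 := (map_ne_zero σ).mpr hs
  have hσt : σ t ≠ 0 := (map_ne_zero σ).mpr ht
  obtain ⟨x, hx⟩ : ∃ x, x = t / s := ⟨_, rfl⟩
  have e1 : x * σ x = algebraMap k E (b' : k) / algebraMap k E (b : k) := by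
    rw [hx, map_div₀]
    field_simp
    linear_combination h
  have e2 : ρ x * σ (ρ x) = algebraMap k E (b' : k) / algebraMap k E (b : k) := by
    have := congrArg ρ e1
    rw [map_mul, ← H.comm, map_div₀, AlgEquiv.commutes, AlgEquiv.commutes] at this
    exact this
  have e3 : ρ (ρ x) * σ (ρ (ρ x)) = algebraMap k E (b' : k) / algebraMap k E (b : k) := by
    have := congrArg ρ e2
    rw [map_mul, ← H.comm, map_div₀, AlgEquiv.commutes, AlgEquiv.commutes] at this
    exact this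
  obtain ⟨u, v, hw⟩ := Nei.fix H (x := x * ρ x * ρ (ρ x)) (by
    rw [map_mul, map_mul, H.ρ3]
    ring)
  have e4 : algebraMap k E (u ^ 2 - a * v ^ 2) =
      (algebraMap k E (b' : k) / algebraMap k E (b : k)) ^ 3 := by
    have e5 : (x * ρ x * ρ (ρ x)) * σ (x * ρ x * ρ (ρ x)) =
        (algebraMap k E (b' : k) / algebraMap k E (b : k)) ^ 3 := by
      calc _ = (x * σ x) * (ρ x * σ (ρ x)) * (ρ (ρ x) * σ (ρ (ρ x))) := by
            rw [map_mul, map_mul]
            ring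
        _ = _ := by
            rw [e1, e2, e3]
            ring
    rw [← e5, hw, map_add, map_mul, H.σα, AlgEquiv.commutes, AlgEquiv.commutes, map_sub, map_mul,
      map_pow, map_pow, ← H.α2]
    ring
  have e5 : u ^ 2 - a * v ^ 2 = ((b' : k) / b) ^ 3 := by
    apply (algebraMap k E).injective
    rw [e4, map_pow, map_div₀]
  have hb : (b : k) ≠ 0 := b.ne_zero
  have hb' : (b' : k) ≠ 0 := b'.ne_zero
  refine ⟨u * (b / b'), v * (b / b'), ?_⟩
  have e6 : (u * ((b : k) / b')) ^ 2 - a * (v * (b / b')) ^ 2 =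
      (u ^ 2 - a * v ^ 2) * (b / b') ^ 2 := by ring
  rw [e6, e5]
  field_simp

/-- Basic vectors with the same norm are conjugate under the automorphisms fixing `i`. -/
theorem exists_n (hdiv : Division a b c) {j j' : Oct a b c} (hj : star j = -j)
    (hj' : star j' = -j') (hij : dot gi j = 0) (hij' : dot gi j' = 0)
    (hn : Oct.norm j' = Oct.norm j) : ∃ n : fixI a b c, n.1.1 j = j' ∧
      ∃ (b' c' : kˣ) (u l : Oct a b c), Trip a b' c' gi u l ∧ n.1.1 u = u := by
  have h2 : NeZero (2 : k) := ⟨two_ne_zero⟩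
  have hstd := Oct.trip_std (a := a) (b := b) (c := c)
  have hi0 : (gi : Oct a b c) ≠ 0 := by
    intro h
    have := congrArg (fun z : Oct a b c => z.fst.imI) h
    simp [gi] at this
  obtain ⟨z, hz0, hz⟩ := Oct.exists_perp
    (![1, gi, j' - j, gi * (j' - j), 0, 0, 0] : Fin 7 → Oct a b c)
  have hz1 : dot z 1 = 0 := hz 0
  have hz2 : dot z gi = 0 := hz 1
  have hz3 : dot z (j' - j) = 0 := hz 2
  have hz4 : dot z (gi * (j' - j)) = 0 := hz 3
  have hz' := Oct.star_iff_dot.2 hz1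
  have hzi : dot gi z = 0 := by rw [B.dot_comm, hz2]
  obtain ⟨ψ, h1, h2, h3⟩ := Oct.exists_move hdiv hstd.si hi0 hz' hz0 hzi hj hj' hn
    (by rw [B.dot_sub_right, hij, hij', sub_zero]) hz3
    (by rw [Oct.dot_mul_left, hstd.si, neg_mul, Oct.dot_neg_right, hz4, neg_zero])
  obtain ⟨l, hl0, hl⟩ := Oct.exists_perp (![1, gi, z, gi * z, 0, 0, 0] : Fin 7 → Oct a b c)
  have hgi : Oct.norm (gi : Oct a b c) = -a := B.norm_of_sq hstd.si hstd.ii
  have P : B.Pair gi z := ⟨hstd.si, hz', fun h => hi0 (hdiv _ h), fun h => hz0 (hdiv _ h), hzi⟩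
  have Pl : B.Perp gi z l := ⟨hl 0, hl 1, hl 2, hl 3⟩
  have hnl : Oct.norm l ≠ 0 := fun h => hl0 (hdiv _ h)
  exact ⟨⟨ψ, h1⟩, h3, Units.mk0 _ (neg_ne_zero.mpr P.nu), Units.mk0 _ (neg_ne_zero.mpr hnl), z, l,
    B.trip_of P Pl (by rw [hgi, neg_neg]) rfl rfl, h2⟩

end fin

end H369

section main

variable {k L E : Type} [Field k] [NumberField k] [Field L] [NumberField L] [Field E]
  [Algebra k L] [Algebra k E] [Algebra L E] [IsScalarTower k L E] [NeZero (2 : E)]
  {ρ σ : E ≃ₐ[k] E} {ρL : L ≃ₐ[k] L} {α : E} {a b c : kˣ} {q : Lˣ}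

/-- Row gen2: the stabiliser of the standard plane is generated by centralisers. -/
theorem gen2 (H : Hy ρ σ ρL α a b c q) {z : AT ρ σ α a b c q} {t : E}
    (hz : z.1 (ep α) = t • ep α) : z ∈ stabs ρ σ α a b c q := by
  have h2 : (2 : k) ≠ 0 := two_ne_zero
  have : NeZero (2 : k) := ⟨h2⟩
  have n2 : (2 : E) ≠ 0 := NeZero.ne 2
  have hα0 := H369.al0 H
  obtain ⟨κ, hκ⟩ := isKap_kap z |> fun h => (⟨_, h⟩ : ∃ κ : Lˣ, IsKap ρ z.1 κ)
  have ht : t ≠ 0 := by
    rintro rfl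
    rw [zero_smul] at hz
    have h5 : (ep α : OctL E a b c) = 0 := z.1.injective (by rw [hz, map_zero])
    have h6 : (1 / 2 : E) = 0 := congrArg (fun z : OctL E a b c => z.fst.re) h5
    exact (one_div_ne_zero n2) h6
  have hstd := Oct.trip_std (a := a) (b := b) (c := c)
  have hst0 : tQ E hstd = t0 E a b c :=
    H369.tQ_t0 h2 (p := 1) (r := 0) (by rfl) (by norm_num) hstd
  -- the transported involution
  obtain ⟨T, hT⟩ : ∃ T, T = z * tAT ρ σ α q hstd * z⁻¹ := ⟨_, rfl⟩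
  have hkT : IsKap ρ T.1 (1 : Lˣ) := by
    have := (hκ.mul (tAT_kap (σ := σ) (α := α) (q := q) hstd)).mul hκ.inv
    rw [mul_one, mul_inv_cancel] at this
    rw [hT]
    exact this
  have hTm : T.1 ∈ GT ρ σ α a b c q := ⟨fun x y => by
    have := hkT x y
    rwa [Units.val_one, map_one, one_smul] at this, T.2.2⟩
  have hT1 : T.1 ≠ 1 := by
    intro h
    have h' : T = 1 := Subtype.ext h
    rw [hT, mul_inv_eq_one, mul_eq_left] at h'
    exact tAT_ne hstd h'
  have hTT : T.1 * T.1 = 1 := by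
    have h' : T * T = 1 := by
      rw [hT]
      calc z * tAT ρ σ α q hstd * z⁻¹ * (z * tAT ρ σ α q hstd * z⁻¹) =
          z * (tAT ρ σ α q hstd * tAT ρ σ α q hstd) * z⁻¹ := by group
        _ = 1 := by rw [tAT_sq, mul_one, mul_inv_cancel]
    exact congrArg Subtype.val h'
  have hTz : T.1 * z.1 = z.1 * tQ E hstd := by
    have h' : T * z = z * tAT ρ σ α q hstd := by rw [hT, inv_mul_cancel_right]
    exact congrArg Subtype.val h'
  have hTe : T.1 (ep α) = ep α := by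
    have e1 : T.1 (z.1 (ep α)) = z.1 (tQ E hstd (ep α)) := congrArg (fun f => f (ep α)) hTz
    have e2 : tQ E hstd (ep α : OctL E a b c) = ep α := by
      rw [hst0]
      apply Oct.ext
      · rfl
      · exact neg_zero
    rw [e2, hz, map_smul] at e1
    exact smul_right_injective _ ht e1
  obtain ⟨b', c', j, l, h, hT'⟩ := exists_tQ H hTm hT1 hTT hTe
  rw [hT'] at hTz
  -- the comparison of the two planes
  obtain ⟨Z, hZ⟩ : ∃ Z : OctL E a b c ≃ₗ[E] OctL E a b' c', ∀ x, tripO E h (Z x) = z.1 x :=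
    ⟨z.1.trans (tripO E h).symm, fun x => (tripO E h).apply_symm_apply _⟩
  have hZs : ∀ x, (tripO E h).symm (z.1 x) = Z x := fun x => by
    rw [← hZ, LinearEquiv.symm_apply_apply]
  obtain ⟨s, hs0, -, hst⟩ := H369.zmain H (Z := Z) (κ := algebraMap L E κ) (t := t)
    (fun x y => (tripO E h).injective (by
      rw [hZ, hκ, map_smul, tripO_tri, hZ, hZ]))
    ((map_ne_zero _).mpr κ.ne_zero)
    (fun x => (tripO E h).injective (by rw [hZ, z.2.2, tripO_Jm, hZ]))
    (fun x => (tripO E h).injective (by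
      rw [hZ, ← hst0]
      have e1 : z.1 (tQ E hstd x) = tQ E h (z.1 x) := congrArg (fun f => f x) hTz.symm
      rw [e1]
      change tripO E h (t0 E a b' c' ((tripO E h).symm (z.1 x))) = _
      rw [hZs]))
    ((tripO E h).injective (by
      rw [hZ, hz, map_smul]
      congr 1
      rw [H369.ep_eq, H369.ep_eq, map_add, map_smul, map_smul, tripO_oup, tripO_oup,
        B.emb_one, B.emb_gi]))
  obtain ⟨p, r, hpr⟩ := H369.exists_pr H hs0 ht hst
  have hD : p ^ 2 - (a : k) * r ^ 2 ≠ 0 := by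
    intro h
    rw [h, mul_zero] at hpr
    exact b'.ne_zero hpr.symm
  obtain ⟨j', hj'⟩ : ∃ j' : Oct a b c, j' = ⟨⟨0, 0, p, r⟩, 0⟩ := ⟨_, rfl⟩
  have hsj : star j' = -j' := by
    rw [hj']
    apply ext8 <;> simp
  have hij : dot gi j' = 0 := by
    rw [B.dot_coord, hj']
    simp [gi]
  have hnj : Oct.norm j' = Oct.norm j := by
    rw [B.norm_of_sq h.sj h.jj, B.norm_coord, hj', ← hpr]
    simp
    ring
  obtain ⟨n, hn, b₂, c₂, u, l₂, hu, hnu⟩ := H369.exists_n H.hdiv h.sj hsj h.ij hij hnj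
  have h₁ : Trip a b' c' gi j' (n.1.1 l) := by
    have := Oct.trip_map h (Φ := n.1.1) n.1.2
    rwa [mem_fixI.mp n.2, hn] at this
  have hm := H369.extE_mem (ρ := ρ) (σ := σ) (α := α) (q := q) n
  obtain ⟨nA, hnA⟩ : ∃ nA : AT ρ σ α a b c q, nA.1 = extE E n.1.1 :=
    ⟨⟨_, ⟨1, fun x y => by
      rw [Units.val_one, map_one, one_smul]
      exact hm.1 x y⟩, hm.2⟩, rfl⟩
  have m1 : nA ∈ stabs ρ σ α a b c q := by
    refine Subgroup.subset_closure ⟨b₂, c₂, u, l₂, hu, ?_⟩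
    change nA.1 * tQ E hu = tQ E hu * nA.1
    rw [hnA]
    exact H369.ext_tQ h2 n hu hu hnu
  have m2 : nA * z ∈ stabs ρ σ α a b c q := by
    refine Subgroup.subset_closure ⟨b, c, gj, gl, hstd, ?_⟩
    change nA.1 * z.1 * tQ E hstd = tQ E hstd * (nA.1 * z.1)
    rw [mul_assoc, ← hTz, ← mul_assoc, hnA, H369.ext_tQ h2 n h h₁ hn,
      H369.tQ_t0 h2 hj' hD h₁, hst0, mul_assoc]
  have m3 : z = nA⁻¹ * (nA * z) := by rw [inv_mul_cancel_left]
  rw [m3]
  exact mul_mem (inv_mem m1) m2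

end main

end Vale.Agent.P011.D4X
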